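import Vale.Agent.P236Yk.K10g0
import Vale.Agent.P236Yk.K10g1
import Vale.Agent.P236Yk.K10g2
import Vale.Agent.P236Yk.K10g3
import Vale.Agent.P236Xd.Zs10

/-!
# P236 / Y : the rows of the level 10 agree with the tables
-/

namespace Vale.Agent.P236Y

open Vale.Agent.P236X

theorem ck10 : ∀ Y ∈ Zs10, ckG Y W10 10 2 5 = true :=
  List.forall_mem_cons.2 ⟨ck10g0,
    List.forall_mem_cons.2 ⟨ck10g1,
    List.forall_mem_cons.2 ⟨ck10g2,
    List.forall_mem_cons.2 ⟨ck10g3,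
    fun _ h => nomatch h⟩⟩⟩⟩

end Vale.Agent.P236Y
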