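import Vale.Agent.P236Yk.K13g0
import Vale.Agent.P236Yk.K13g1
import Vale.Agent.P236Xd.Zs13

/-!
# P236 / Y : the rows of the level 13 agree with the tables
-/

namespace Vale.Agent.P236Y

open Vale.Agent.P236X

theorem ck13 : ∀ Y ∈ Zs13, ckG Y W13 13 2 5 = true :=
  List.forall_mem_cons.2 ⟨ck13g0,
    List.forall_mem_cons.2 ⟨ck13g1,
    fun _ h => nomatch h⟩⟩

end Vale.Agent.P236Y
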