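import Vale.Agent.P236Yk.K18g0
import Vale.Agent.P236Xd.Zs18

/-!
# P236 / Y : the rows of the level 18 agree with the tables
-/

namespace Vale.Agent.P236Y

open Vale.Agent.P236X

theorem ck18 : ∀ Y ∈ Zs18, ckG Y W18 18 2 4 = true :=
  List.forall_mem_cons.2 ⟨ck18g0,
    fun _ h => nomatch h⟩

end Vale.Agent.P236Y
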