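import Vale.Agent.P236Yk.K2g0
import Vale.Agent.P236Yk.K2g1
import Vale.Agent.P236Yk.K2g2
import Vale.Agent.P236Yk.K2g3
import Vale.Agent.P236Yk.K2g4
import Vale.Agent.P236Yk.K2g5
import Vale.Agent.P236Yk.K2g6
import Vale.Agent.P236Yk.K2g7
import Vale.Agent.P236Yk.K2g8
import Vale.Agent.P236Yk.K2g9
import Vale.Agent.P236Yk.K2g10
import Vale.Agent.P236Yk.K2g11
import Vale.Agent.P236Yk.K2g12
import Vale.Agent.P236Yk.K2g13
import Vale.Agent.P236Yk.K2g14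
import Vale.Agent.P236Yk.K2g15
import Vale.Agent.P236Yk.K2g16
import Vale.Agent.P236Yk.K2g17
import Vale.Agent.P236Yk.K2g18
import Vale.Agent.P236Yk.K2g19
import Vale.Agent.P236Yk.K2g20
import Vale.Agent.P236Xd.Zs2

/-!
# P236 / Y : the rows of the level 2 agree with the tables
-/

namespace Vale.Agent.P236Y

open Vale.Agent.P236X

theorem ck2 : ∀ Y ∈ Zs2, ckG Y W2 2 2 10 = true :=
  List.forall_mem_cons.2 ⟨ck2g0,
    List.forall_mem_cons.2 ⟨ck2g1,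
    List.forall_mem_cons.2 ⟨ck2g2,
    List.forall_mem_cons.2 ⟨ck2g3,
    List.forall_mem_cons.2 ⟨ck2g4,
    List.forall_mem_cons.2 ⟨ck2g5,
    List.forall_mem_cons.2 ⟨ck2g6,
    List.forall_mem_cons.2 ⟨ck2g7,
    List.forall_mem_cons.2 ⟨ck2g8,
    List.forall_mem_cons.2 ⟨ck2g9,
    List.forall_mem_cons.2 ⟨ck2g10,
    List.forall_mem_cons.2 ⟨ck2g11,
    List.forall_mem_cons.2 ⟨ck2g12,
    List.forall_mem_cons.2 ⟨ck2g13,
    List.forall_mem_cons.2 ⟨ck2g14,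
    List.forall_mem_cons.2 ⟨ck2g15,
    List.forall_mem_cons.2 ⟨ck2g16,
    List.forall_mem_cons.2 ⟨ck2g17,
    List.forall_mem_cons.2 ⟨ck2g18,
    List.forall_mem_cons.2 ⟨ck2g19,
    List.forall_mem_cons.2 ⟨ck2g20,
    fun _ h => nomatch h⟩⟩⟩⟩⟩⟩⟩⟩⟩⟩⟩⟩⟩⟩⟩⟩⟩⟩⟩⟩⟩

end Vale.Agent.P236Y
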