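import Vale.Agent.P236Yk.K20g0
import Vale.Agent.P236Xd.Zs20

/-!
# P236 / Y : the rows of the level 20 agree with the tables
-/

namespace Vale.Agent.P236Y

open Vale.Agent.P236X

theorem ck20 : ∀ Y ∈ Zs20, ckG Y W20 20 2 4 = true :=
  List.forall_mem_cons.2 ⟨ck20g0,
    fun _ h => nomatch h⟩

end Vale.Agent.P236Y
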