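import Vale.Agent.P236Yk.K3g0
import Vale.Agent.P236Yk.K3g1
import Vale.Agent.P236Yk.K3g2
import Vale.Agent.P236Yk.K3g3
import Vale.Agent.P236Yk.K3g4
import Vale.Agent.P236Yk.K3g5
import Vale.Agent.P236Yk.K3g6
import Vale.Agent.P236Yk.K3g7
import Vale.Agent.P236Yk.K3g8
import Vale.Agent.P236Yk.K3g9
import Vale.Agent.P236Xd.Zs3

/-!
# P236 / Y : the rows of the level 3 agree with the tables
-/

namespace Vale.Agent.P236Y

open Vale.Agent.P236X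

theorem ck3 : ∀ Y ∈ Zs3, ckG Y W3 3 2 5 = true :=
  List.forall_mem_cons.2 ⟨ck3g0,
    List.forall_mem_cons.2 ⟨ck3g1,
    List.forall_mem_cons.2 ⟨ck3g2,
    List.forall_mem_cons.2 ⟨ck3g3,
    List.forall_mem_cons.2 ⟨ck3g4,
    List.forall_mem_cons.2 ⟨ck3g5,
    List.forall_mem_cons.2 ⟨ck3g6,
    List.forall_mem_cons.2 ⟨ck3g7,
    List.forall_mem_cons.2 ⟨ck3g8,
    List.forall_mem_cons.2 ⟨ck3g9,
    fun _ h => nomatch h⟩⟩⟩⟩⟩⟩⟩⟩⟩⟩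

end Vale.Agent.P236Y
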