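import Vale.Agent.P236Yk.K4g0
import Vale.Agent.P236Yk.K4g1
import Vale.Agent.P236Yk.K4g2
import Vale.Agent.P236Yk.K4g3
import Vale.Agent.P236Yk.K4g4
import Vale.Agent.P236Yk.K4g5
import Vale.Agent.P236Yk.K4g6
import Vale.Agent.P236Yk.K4g7
import Vale.Agent.P236Yk.K4g8
import Vale.Agent.P236Xd.Zs4

/-!
# P236 / Y : the rows of the level 4 agree with the tables
-/

namespace Vale.Agent.P236Y

open Vale.Agent.P236X

theorem ck4 : ∀ Y ∈ Zs4, ckG Y W4 4 2 5 = true :=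
  List.forall_mem_cons.2 ⟨ck4g0,
    List.forall_mem_cons.2 ⟨ck4g1,
    List.forall_mem_cons.2 ⟨ck4g2,
    List.forall_mem_cons.2 ⟨ck4g3,
    List.forall_mem_cons.2 ⟨ck4g4,
    List.forall_mem_cons.2 ⟨ck4g5,
    List.forall_mem_cons.2 ⟨ck4g6,
    List.forall_mem_cons.2 ⟨ck4g7,
    List.forall_mem_cons.2 ⟨ck4g8,
    fun _ h => nomatch h⟩⟩⟩⟩⟩⟩⟩⟩⟩

end Vale.Agent.P236Y
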