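import Vale.Agent.P236Yk.K5g0
import Vale.Agent.P236Yk.K5g1
import Vale.Agent.P236Yk.K5g2
import Vale.Agent.P236Yk.K5g3
import Vale.Agent.P236Yk.K5g4
import Vale.Agent.P236Yk.K5g5
import Vale.Agent.P236Xd.Zs5

/-!
# P236 / Y : the rows of the level 5 agree with the tables
-/

namespace Vale.Agent.P236Y

open Vale.Agent.P236X

theorem ck5 : ∀ Y ∈ Zs5, ckG Y W5 5 2 5 = true :=
  List.forall_mem_cons.2 ⟨ck5g0,
    List.forall_mem_cons.2 ⟨ck5g1,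
    List.forall_mem_cons.2 ⟨ck5g2,
    List.forall_mem_cons.2 ⟨ck5g3,
    List.forall_mem_cons.2 ⟨ck5g4,
    List.forall_mem_cons.2 ⟨ck5g5,
    fun _ h => nomatch h⟩⟩⟩⟩⟩⟩

end Vale.Agent.P236Y
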