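import Vale.Agent.P236Yk.K5g5
import Vale.Agent.P236Yt.W6
import Vale.Agent.P236Xd.Z6g2

/-!
# P236 / Y : the rows of the level 6 agree with the tables
-/

namespace Vale.Agent.P236Y

open Vale.Agent.P236X

set_option maxRecDepth 100000 in
theorem ck6g2 : ckG Z6g2 W6 6 2 5 = true := by decide +kernel

end Vale.Agent.P236Y
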