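import Vale.Agent.P236Yk.K6g0
import Vale.Agent.P236Yk.K6g1
import Vale.Agent.P236Yk.K6g2
import Vale.Agent.P236Yk.K6g3
import Vale.Agent.P236Yk.K6g4
import Vale.Agent.P236Xd.Zs6

/-!
# P236 / Y : the rows of the level 6 agree with the tables
-/

namespace Vale.Agent.P236Y

open Vale.Agent.P236X

theorem ck6 : ∀ Y ∈ Zs6, ckG Y W6 6 2 5 = true :=
  List.forall_mem_cons.2 ⟨ck6g0,
    List.forall_mem_cons.2 ⟨ck6g1,
    List.forall_mem_cons.2 ⟨ck6g2,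
    List.forall_mem_cons.2 ⟨ck6g3,
    List.forall_mem_cons.2 ⟨ck6g4,
    fun _ h => nomatch h⟩⟩⟩⟩⟩

end Vale.Agent.P236Y
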