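import Vale.Agent.P236Yk.K7g0
import Vale.Agent.P236Yk.K7g1
import Vale.Agent.P236Yk.K7g2
import Vale.Agent.P236Yk.K7g3
import Vale.Agent.P236Xd.Zs7

/-!
# P236 / Y : the rows of the level 7 agree with the tables
-/

namespace Vale.Agent.P236Y

open Vale.Agent.P236X

theorem ck7 : ∀ Y ∈ Zs7, ckG Y W7 7 2 5 = true :=
  List.forall_mem_cons.2 ⟨ck7g0,
    List.forall_mem_cons.2 ⟨ck7g1,
    List.forall_mem_cons.2 ⟨ck7g2,
    List.forall_mem_cons.2 ⟨ck7g3,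
    fun _ h => nomatch h⟩⟩⟩⟩

end Vale.Agent.P236Y
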