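import Vale.Agent.P236Yk.K8g0
import Vale.Agent.P236Yk.K8g1
import Vale.Agent.P236Yk.K8g2
import Vale.Agent.P236Yk.K8g3
import Vale.Agent.P236Yk.K8g4
import Vale.Agent.P236Xd.Zs8

/-!
# P236 / Y : the rows of the level 8 agree with the tables
-/

namespace Vale.Agent.P236Y

open Vale.Agent.P236X

theorem ck8 : ∀ Y ∈ Zs8, ckG Y W8 8 2 5 = true :=
  List.forall_mem_cons.2 ⟨ck8g0,
    List.forall_mem_cons.2 ⟨ck8g1,
    List.forall_mem_cons.2 ⟨ck8g2,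
    List.forall_mem_cons.2 ⟨ck8g3,
    List.forall_mem_cons.2 ⟨ck8g4,
    fun _ h => nomatch h⟩⟩⟩⟩⟩

end Vale.Agent.P236Y
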